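import Vale.Agent.P011.H872.RootC
import Vale.Agent.P011.H321.RhoA
import Vale.Agent.P011.Pow.CentT

/-!
# Symmetric elements of trace zero with a local root

For finitely many finite places outside `Tdiv` there is a symmetric element `a` of trace zero with
`|N a| ^ 2 < |S a| ^ 3` at these places.
-/

open NumberField IsDedekindDomain Module TensorProduct Matrix

set_option linter.unusedSectionVars false

namespace Vale.Agent.P011.H872

open Vale.Agent.P011.Arith Vale.Agent.P011.Even Vale.Agent.P011.Two Vale.Agent.P011.One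
  Vale.Agent.P011.W Vale.Agent.P011.H775 Vale.Agent.P011.H948

section eval

/-- Continuity of the forms. -/
theorem q_close {F : Type*} [Field F] (w : Valuation F (WithZero (Multiplicative ℤ))) {M : ℕ}
    (t2 : Fin M → Fin M → F) (t3 : Fin M → Fin M → Fin M → F) (a : Fin M → F)
    {ε : WithZero (Multiplicative ℤ)} (hε : ε ≠ 0) :
    ∃ δ : WithZero (Multiplicative ℤ), δ ≠ 0 ∧ ∀ x : Fin M → F, (∀ j, w (x j - a j) < δ) →
      w (q2 t2 x - q2 t2 a) < ε ∧ w (q3 t3 x - q3 t3 a) < ε := by
  obtain ⟨δ2, h2, k2⟩ := H321.Avoid.eval_close w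
    (q2 (fun i j => MvPolynomial.C (t2 i j)) MvPolynomial.X) a ε hε
  obtain ⟨δ3, h3, k3⟩ := H321.Avoid.eval_close w
    (q3 (fun i j l => MvPolynomial.C (t3 i j l)) MvPolynomial.X) a ε hε
  refine ⟨min δ2 δ3, ?_, fun x hx => ⟨?_, ?_⟩⟩
  · rcases min_choice δ2 δ3 with h | h
    · rw [h]; exact h2
    · rw [h]; exact h3
  · have := k2 x fun j => (hx j).trans_le (min_le_left _ _)
    rw [map_q2, map_q2] at this
    simpa only [MvPolynomial.eval_C, MvPolynomial.eval_X] using this
  · have := k3 x fun j => (hx j).trans_le (min_le_right _ _)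
    rw [map_q3, map_q3] at this
    simpa only [MvPolynomial.eval_C, MvPolynomial.eval_X] using this

end eval

section nf

variable {k K D : Type} [Field k] [NumberField k] [Field K] [StarRing K]
  [DivisionRing D] [StarRing D] [Algebra k K] [Algebra k D] [Algebra K D] [IsScalarTower k K D]
  {d : kˣ} {s : K}

/-- **The local solution.** -/
theorem exists_loc (hS : Setting k K D d s) (hdeg : finrank K D = 3 ^ 2) {C : Cub K D}
    (hk : ∀ c : k, star (algebraMap k K c) = algebraMap k K c) (h : SCub C) {M : ℕ}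
    (B : Basis (Fin M) k D) {t2 : Fin M → Fin M → k} {t3 : Fin M → Fin M → Fin M → k}
    (ht2 : ∀ i j, algebraMap k K (t2 i j) = C.T (prL hk h (B i) * prL hk h (B j)))
    (ht3 : ∀ i j l, algebraMap k K (t3 i j l) =
      C.T (prL hk h (B i) * prL hk h (B j) * prL hk h (B l)) +
        C.T (prL hk h (B l) * prL hk h (B j) * prL hk h (B i)))
    {v : HeightOneSpectrum (𝓞 k)} (hv : (Sum.inl v : Pl k) ∉ Tdiv k K D) :
    ∃ y : Fin M → v.adicCompletion k,
      q2 (fun i j => algebraMap k (v.adicCompletion k) (t2 i j)) y = 2 ∧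
        q3 (fun i j l => algebraMap k (v.adicCompletion k) (t3 i j l)) y = 0 := by
  have := hS.fin
  have := hS.cen
  have hfk : FiniteDimensional k K :=
    Module.finite_of_finrank_pos (by rw [hS.rank]; norm_num)
  have hNK : NumberField K := NumberField.of_module_finite k K
  have h2 : (2 : K) ≠ 0 := two_ne_zero
  have h3 : (3 : K) ≠ 0 := three_ne_zero
  have hs0 : s ≠ 0 := by
    rintro rfl
    have h4 := hS.sq
    rw [zero_pow two_ne_zero] at h4
    exact d.ne_zero ((map_eq_zero _).mp h4.symm)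
  have hp : ∀ i, C.T (prL hk h (B i)) = 0 := fun i => T_prL hk h h3 _
  by_cases hd : d ∈ LS (v.valuation k)
  · obtain ⟨θ, hθ⟩ := (isSquare_iff v d).mpr hd
    obtain ⟨φ, -⟩ := Vale.Agent.P011.One.exists_lift hS (F := v.adicCompletion k) (θ := θ)
      (by rw [hθ, sq])
    obtain ⟨g⟩ := split_of_hom hS Nat.prime_three hdeg hv φ
    let _ : Algebra K (v.adicCompletion k) := (φ : K →+* v.adicCompletion k).toAlgebra
    have h5 : IsScalarTower k K (v.adicCompletion k) :=
      IsScalarTower.of_algebraMap_eq fun c => (φ.commutes c).symm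
    have h6 : CharZero (v.adicCompletion k) :=
      charZero_of_injective_algebraMap (algebraMap k (v.adicCompletion k)).injective
    obtain ⟨y, c, hyc⟩ := coord_split hk h B hdeg h2 hs0 hS.star_s g (E3 (v.adicCompletion k))
    obtain ⟨e1, e2, e3⟩ := E3_trace (v.adicCompletion k)
    exact ⟨y, coord g three_ne_zero C (C.of_split hdeg g).1 hp ht2 ht3 hyc e1 e2 e3⟩
  · obtain ⟨L, _, _, _, ρ, G, hfix, hL2, hG, hGs, hρ⟩ := exists_local_model hS hdeg v hd
    obtain ⟨_, _, _, _, g, hg⟩ := exists_alg_of_iso (K := K) three_ne_zero ρ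
    have h5 : CharZero (v.adicCompletion k) :=
      charZero_of_injective_algebraMap (algebraMap k (v.adicCompletion k)).injective
    have h6 : CharZero L :=
      charZero_of_injective_algebraMap (algebraMap (v.adicCompletion k) L).injective
    obtain ⟨e, hQ⟩ := exists_quadL hfix hL2
    have hGd : G.det ≠ 0 := ((Matrix.isUnit_iff_isUnit_det G).mp hG).ne_zero
    obtain ⟨P, δ, hP, hPd⟩ := Even.exists_diag hQ G hGs hGd
    obtain ⟨m, hm, e1, e2, e3⟩ := exists_sym hP hPd
    obtain ⟨y, c, hyc⟩ := coord_nonsplit hk h B two_ne_zero hS.sig (fun _ => rfl) ρ hG hρ g hg hm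
    exact ⟨y, coord g three_ne_zero C (C.of_split hdeg g).1 hp ht2 ht3 hyc e1 e2 e3⟩

/-- **Symmetric elements of trace zero with a local root.** -/
theorem exists_root_type (hS : Setting k K D d s) (hdeg : finrank K D = 3 ^ 2) (C : Cub K D)
    {P : Set (HeightOneSpectrum (𝓞 k))} (hP : P.Finite)
    (hPT : ∀ v ∈ P, (Sum.inl v : Pl k) ∉ Tdiv k K D) (a1 : D) :
    ∃ a : D, star a = a ∧ C.T a = 0 ∧ C.S a ≠ 0 ∧ (∀ c : k, a ≠ c • a1) ∧
      ∀ v ∈ P, ∃ n e : k, algebraMap k K n = C.N a ∧ algebraMap k K e = C.S a ∧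
        v.valuation k (n ^ 2) < v.valuation k (e ^ 3) := by
  classical
  have := hS.fin
  have := hS.cen
  have hfk : FiniteDimensional k K :=
    Module.finite_of_finrank_pos (by rw [hS.rank]; norm_num)
  have hNK : NumberField K := NumberField.of_module_finite k K
  have hfD := hS.fin_k
  have h2 : (2 : K) ≠ 0 := two_ne_zero
  have h3 : (3 : K) ≠ 0 := three_ne_zero
  have hs0 : s ≠ 0 := by
    rintro rfl
    have h4 := hS.sq
    rw [zero_pow two_ne_zero] at h4
    exact d.ne_zero ((map_eq_zero _).mp h4.symm)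
  have hk : ∀ c : k, star (algebraMap k K c) = algebraMap k K c := fun c =>
    (hS.fix _).mpr ⟨c, rfl⟩
  have h : SCub C := sCub_of C hdeg hS.star_smul
  -- an extra place
  obtain ⟨v0, hv0⟩ := H321.Rho.exists_notMem
    (((Vale.Agent.P011.Pow.tdiv_finite (k := k) (K := K) (D := D) (n := 3) (by norm_num) hdeg).preimage
      Sum.inl_injective.injOn).toFinset)
  have hv0' : (Sum.inl v0 : Pl k) ∉ Tdiv k K D := fun h0 =>
    hv0 ((Set.Finite.mem_toFinset _).mpr h0)
  let Q : Finset (HeightOneSpectrum (𝓞 k)) := insert v0 hP.toFinset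
  have hQT : ∀ v ∈ Q, (Sum.inl v : Pl k) ∉ Tdiv k K D := by
    intro v hv
    rcases Finset.mem_insert.mp hv with rfl | hv
    · exact hv0'
    · exact hPT v ((Set.Finite.mem_toFinset _).mp hv)
  let B := finBasis k D
  obtain ⟨t2, t3, ht2, ht3⟩ := exists_t h (p := fun i => prL hk h (B i))
    (fun x hx => (hS.fix x).mp hx) (fun i => star_prL hk h _)
  -- the local solutions and their neighbourhoods
  have hloc : ∀ v : HeightOneSpectrum (𝓞 k), v ∈ Q →
      ∃ (y : Fin (finrank k D) → k) (δ : WithZero (Multiplicative ℤ)), δ ≠ 0 ∧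
        ∀ x : Fin (finrank k D) → k, (∀ j, v.valuation k (x j - y j) < δ) →
          v.valuation k ((q3 t3 x / 6) ^ 2) < v.valuation k ((-(q2 t2 x / 2)) ^ 3) := by
    intro v hv
    obtain ⟨y, hy2, hy3⟩ := exists_loc hS hdeg hk h B ht2 ht3 (hQT v hv)
    have h5 : CharZero (v.adicCompletion k) :=
      charZero_of_injective_algebraMap (algebraMap k (v.adicCompletion k)).injective
    have hε : v.valuation k 6 * v.valuation k 2 ≠ 0 := by
      rw [← map_mul, Valuation.ne_zero_iff]
      norm_num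
    obtain ⟨δ, hδ, hδx⟩ := q_close (Valued.v : Valuation (v.adicCompletion k) _)
      (fun i j => algebraMap k (v.adicCompletion k) (t2 i j))
      (fun i j l => algebraMap k (v.adicCompletion k) (t3 i j l)) y hε
    have hden : ∀ j, ∃ a : k, Valued.v (algebraMap k (v.adicCompletion k) a - y j) < δ := by
      intro j
      obtain ⟨_, h4, ⟨a, rfl⟩⟩ := (mem_closure_iff_nhds.1
        (v.denseRange_algebraMap (K := k) (y j))) _ (H321.Rho.ball_mem v (y j) hδ)
      exact ⟨a, h4⟩
    choose a ha using hden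
    refine ⟨a, δ, hδ, fun x hx => ?_⟩
    have h6 := hδx (fun j => algebraMap k (v.adicCompletion k) (x j)) fun j => by
      have e : algebraMap k (v.adicCompletion k) (x j) - y j =
          algebraMap k (v.adicCompletion k) (x j - a j) +
            (algebraMap k (v.adicCompletion k) (a j) - y j) := by
        rw [map_sub]; ring
      rw [e]
      refine Valued.v.map_add_lt ?_ (ha j)
      rw [H321.Rho.val_alg]
      exact hx j
    rw [hy2, hy3, ← map_q2, ← map_q3, sub_zero, H321.Rho.val_alg,
      ← map_ofNat (algebraMap k (v.adicCompletion k)) 2, ← map_sub, H321.Rho.val_alg] at h6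
    have w2 : v.valuation k (2 : k) ≤ 1 := by
      have h7 : v.valuation k (algebraMap (𝓞 k) k 2) ≤ 1 := v.valuation_le_one 2
      rwa [map_ofNat] at h7
    have w6 : v.valuation k (6 : k) ≤ 1 := by
      have h7 : v.valuation k (algebraMap (𝓞 k) k 6) ≤ 1 := v.valuation_le_one 6
      rwa [map_ofNat] at h7
    have g2 : v.valuation k (2 : k) ≠ 0 := (Valuation.ne_zero_iff _).mpr two_ne_zero
    have g6 : v.valuation k (6 : k) ≠ 0 := (Valuation.ne_zero_iff _).mpr (by norm_num)
    have k2 : v.valuation k (q2 t2 x) = v.valuation k (2 : k) :=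
      Valuation.map_eq_of_sub_lt _ (h6.1.trans_le (mul_le_of_le_one_left' w6))
    have k3 : v.valuation k (q3 t3 x) < v.valuation k (6 : k) :=
      h6.2.trans_le (mul_le_of_le_one_right' w2)
    rw [map_pow, map_pow, Valuation.map_neg, map_div₀, map_div₀, k2, div_self g2, one_pow]
    exact pow_lt_one₀ zero_le ((div_lt_one₀ (zero_lt_iff.mpr g6)).mpr k3) two_ne_zero
  choose! y δ hδ hyx using hloc
  -- the value of the element with given coordinates
  have hval : ∀ x : Fin (finrank k D) → k, (∀ v ∈ Q, ∀ j, v.valuation k (x j - y v j) < δ v) →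
      (∀ c : k, ∑ i, x i • prL hk h (B i) ≠ c • a1) →
      ∃ a : D, star a = a ∧ C.T a = 0 ∧ C.S a ≠ 0 ∧ (∀ c : k, a ≠ c • a1) ∧
      ∀ v ∈ P, ∃ n e : k, algebraMap k K n = C.N a ∧ algebraMap k K e = C.S a ∧
        v.valuation k (n ^ 2) < v.valuation k (e ^ 3) := by
    intro x hx hne
    set a : D := ∑ i, x i • prL hk h (B i) with ha
    have ha' : a = prL hk h (∑ i, x i • B i) := by
      rw [ha, map_sum]
      exact Finset.sum_congr rfl fun i _ => (map_smul _ _ _).symm
    have hTa : C.T a = 0 := by rw [ha', T_prL hk h h3]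
    have e1 : algebraMap k K (-(q2 t2 x / 2)) = C.S a := by
      rw [S_of_T h2 hTa, ha, T_sq_eq ht2, map_neg, map_div₀, map_ofNat]
    have e2 : algebraMap k K (q3 t3 x / 6) = C.N a := by
      rw [N_of_T h3 hTa, ha, map_div₀, ← T_cube_eq ht3, map_ofNat]
      ring
    refine ⟨a, by rw [ha', star_prL], hTa, ?_, hne, fun v hv => ⟨_, _, e2, e1, ?_⟩⟩
    · rw [← e1]
      refine (_root_.map_ne_zero _).mpr fun h0 => ?_
      have h4 := hyx v0 (Finset.mem_insert_self _ _) x (hx v0 (Finset.mem_insert_self _ _))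
      rw [h0, zero_pow three_ne_zero, map_zero] at h4
      exact not_lt_zero h4
    · have hvQ : v ∈ Q := Finset.mem_insert_of_mem ((Set.Finite.mem_toFinset _).mpr hv)
      exact hyx v hvQ x (hx v hvQ)
  -- weak approximation
  have happ : ∀ j, ∃ z : k, ∀ v ∈ Q, v.valuation k (z - y v j) < δ v := fun j => by
    obtain ⟨z, hz, -⟩ := H321.Avoid.approx Q (fun v => y v j) δ hδ
    exact ⟨z, hz⟩
  choose x hx using happ
  by_cases hc : ∀ c : k, ∑ i, x i • prL hk h (B i) ≠ c • a1
  · exact hval x (fun v hv j => hx j v hv) hc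
  · push Not at hc
    obtain ⟨c, hc⟩ := hc
    obtain ⟨i0, hi0⟩ := exists_ne_smul hk h hdeg h2 hs0 hS.star_s B a1
    obtain ⟨r, hr0, hr⟩ := H321.Avoid.exists_small k Q δ hδ
    have hr0' : algebraMap (𝓞 k) k r ≠ 0 := fun h0 =>
      hr0 ((FaithfulSMul.algebraMap_injective (𝓞 k) k) (by rw [h0, map_zero]))
    refine hval (fun i => x i + if i = i0 then algebraMap (𝓞 k) k r else 0) ?_ ?_
    · intro v hv j
      have e : (x j + if j = i0 then algebraMap (𝓞 k) k r else 0) - y v j =
          (x j - y v j) + if j = i0 then algebraMap (𝓞 k) k r else 0 := by ring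
      rw [e]
      refine Valuation.map_add_lt _ (hx j v hv) ?_
      split_ifs
      · exact hr v hv
      · rw [map_zero]
        exact zero_lt_iff.mpr (hδ v hv)
    · intro c' hc'
      refine hi0 ((algebraMap (𝓞 k) k r)⁻¹ * (c' - c)) ?_
      simp only [add_smul, ite_smul, zero_smul, Finset.sum_add_distrib, Finset.sum_ite_eq',
        Finset.mem_univ, if_true, hc] at hc'
      rw [mul_smul, sub_smul, ← hc', add_sub_cancel_left, smul_smul, inv_mul_cancel₀ hr0',
        one_smul]

end nf

end Vale.Agent.P011.H872
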