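import Mathlib.Algebra.Polynomial.AlgebraMap
import Mathlib.LinearAlgebra.LinearIndependent.Defs
import Mathlib.Data.Fin.VecNotation
import Mathlib.Algebra.BigOperators.Fin
import Mathlib.Tactic.LinearCombination
import Mathlib.Tactic.FieldSimp
import Mathlib.Tactic.NormNum

/-!
# A choice of a generator with `f₁² ≠ 4 f₂`
-/

open Polynomial

set_option linter.unusedSectionVars false

namespace Vale.Agent.P011.H872

section pick

variable {k D : Type} [Field k] [CharZero k] [DivisionRing D] [Algebra k D]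

/-- **The choice of the generator.** -/
theorem pick_b1 {j0 : D} {e1 e2 e3 : k}
    (hx : (j0 ^ 2) ^ 3 = e1 • (j0 ^ 2) ^ 2 - e2 • j0 ^ 2 + e3 • (1 : D))
    (hli : ∀ a b c : k, a • (1 : D) + b • j0 ^ 2 + c • (j0 ^ 2) ^ 2 = 0 →
      a = 0 ∧ b = 0 ∧ c = 0) :
    ∃ p : D, (p = j0 ∨ p = j0⁻¹ ∨ p = (1 + j0 ^ 2) * j0) ∧ ∃ f1 f2 f3 : k,
      (p ^ 2) ^ 3 = f1 • (p ^ 2) ^ 2 - f2 • p ^ 2 + f3 • (1 : D) ∧
      (∀ c : k, algebraMap k D c ≠ p ^ 2) ∧ f1 ^ 2 ≠ 4 * f2 := by
  set ξ : D := j0 ^ 2 with hξ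
  let φ : k[X] →ₐ[k] D := aeval ξ
  have hφX : φ X = ξ := aeval_X ξ
  have hφC : ∀ a : k, φ (C a) = a • (1 : D) := fun a => by
    rw [← Algebra.algebraMap_eq_smul_one]
    exact aeval_C ξ a
  have h1 : φ (X ^ 3 - (C e1 * X ^ 2 - C e2 * X + C e3)) = 0 := by
    rw [map_sub, map_add, map_sub, map_mul, map_mul, map_pow, map_pow, hφX, hφC, hφC, hφC,
      smul_one_mul, smul_one_mul, ← hx, sub_self]
  have hlin : ∀ a b c : k, φ (C a + C b * X + C c * X ^ 2) = 0 → a = 0 ∧ b = 0 ∧ c = 0 := by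
    intro a b c h
    rw [map_add, map_add, map_mul, map_mul, map_pow, hφX, hφC, hφC, hφC, smul_one_mul,
      smul_one_mul] at h
    exact hli a b c h
  have hroot : ∀ r a b : k, φ ((X - C r) * (X ^ 2 + C a * X + C b)) ≠ 0 := by
    intro r a b h
    rw [map_mul] at h
    rcases mul_eq_zero.mp h with h | h
    · have := hlin (-r) 1 0 (by
        rw [← h]
        congr 1
        simp only [C_neg, C_1, C_0]
        ring)
      exact one_ne_zero this.2.1
    · have := hlin b a 1 (by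
        rw [← h]
        congr 1
        simp only [C_1]
        ring)
      exact one_ne_zero this.2.2
  have he3 : e3 ≠ 0 := by
    rintro rfl
    refine hroot 0 (-e1) e2 ?_
    rw [← h1]
    congr 1
    simp only [C_neg, C_0]
    ring
  have hξ0 : ξ ≠ 0 := by
    intro h
    have := hlin 0 1 0 (by
      rw [C_0, C_1, zero_mul, add_zero, one_mul, zero_add, hφX, h])
    exact one_ne_zero this.2.1
  by_cases c1 : e1 ^ 2 = 4 * e2
  · by_cases c2 : e2 ^ 2 = 4 * e1 * e3
    · by_cases c3 : e1 = 0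
      · have c4 : e2 = 0 := by
          rw [c3, zero_pow two_ne_zero] at c1
          exact (mul_eq_zero.mp c1.symm).resolve_left (by norm_num)
        rw [c3, c4, C_0, zero_mul, zero_mul, sub_zero, zero_add] at h1
        have hp : ((1 + ξ) * j0) ^ 2 = φ (C e3 + X + C 2 * X ^ 2) := by
          have g1 : Commute (1 + ξ) j0 := (Commute.one_left j0).add_left
            ((Commute.refl j0).pow_left 2)
          have g2 : ((1 + ξ) * j0) ^ 2 = φ ((1 + X) ^ 2 * X) := by
            rw [g1.mul_pow, ← hξ, map_mul, map_pow, map_add, map_one, hφX]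
          rw [g2, ← sub_eq_zero, ← map_sub, ← h1]
          congr 1
          simp only [C_ofNat]
          ring
        refine ⟨(1 + ξ) * j0, Or.inr (Or.inr rfl), 3 * e3, 3 * e3 ^ 2 - 6 * e3,
          e3 ^ 3 + 2 * e3 ^ 2 + e3, ?_, ?_, ?_⟩
        · rw [hp, ← smul_one_mul (3 * e3), ← smul_one_mul (3 * e3 ^ 2 - 6 * e3), ← hφC, ← hφC,
            ← hφC, ← sub_eq_zero]
          simp only [← map_pow, ← map_mul, ← map_sub, ← map_add]
          have g3 : (C e3 + X + C 2 * X ^ 2 : k[X]) ^ 3 - (C (3 * e3) * (C e3 + X + C 2 * X ^ 2) ^ 2 -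
              C (3 * e3 ^ 2 - 6 * e3) * (C e3 + X + C 2 * X ^ 2) + C (e3 ^ 3 + 2 * e3 ^ 2 + e3)) =
              (X ^ 3 - C e3) * (8 * X ^ 3 + 12 * X ^ 2 + 6 * X + 1 + 8 * C e3) := by
            simp only [C_add, C_sub, C_mul, C_pow, C_ofNat]
            ring
          rw [g3, map_mul, h1, zero_mul]
        · intro c hc
          rw [hp, Algebra.algebraMap_eq_smul_one, ← hφC, ← sub_eq_zero, ← map_sub] at hc
          have := hlin (c - e3) (-1) (-2) (by
            rw [← hc]
            congr 1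
            simp only [C_neg, C_sub, C_1]
            ring)
          exact one_ne_zero (neg_eq_zero.mp this.2.1)
        · intro h
          have g4 : 3 * e3 * (e3 - 8) = 0 := by linear_combination -h
          rcases mul_eq_zero.mp g4 with g5 | g5
          · rcases mul_eq_zero.mp g5 with g6 | g6
            · norm_num at g6
            · exact he3 g6
          · have g6 : e3 = 8 := sub_eq_zero.mp g5
            refine hroot 2 2 4 ?_
            rw [← h1, g6]
            congr 1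
            simp only [C_ofNat]
            ring
      · exfalso
        have d2 : e2 = e1 ^ 2 / 4 := by
          field_simp
          linear_combination -c1
        have d3 : e3 = e1 ^ 3 / 64 := by
          rw [d2] at c2
          have : e1 * (e1 ^ 3 / 64) = e1 * e3 := by
            linear_combination c2 / 4
          exact (mul_left_cancel₀ c3 this).symm
        refine hroot (e1 / 4) (-(3 / 4) * e1) (e1 ^ 2 / 16) ?_
        rw [← h1, d2, d3]
        congr 1
        have t1 : (C (e1 / 4) : k[X]) = C (1 / 4) * C e1 := by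
          rw [← C_mul]
          congr 1
          ring
        have t2 : (C (-(3 / 4) * e1) : k[X]) = - 3 * C (1 / 4) * C e1 := by
          rw [← C_ofNat, ← C_neg, ← C_mul, ← C_mul]
          congr 1
          ring
        have t3 : (C (e1 ^ 2 / 16) : k[X]) = C (1 / 4) ^ 2 * C e1 ^ 2 := by
          rw [← C_pow, ← C_pow, ← C_mul]
          congr 1
          ring
        have t4 : (C (e1 ^ 2 / 4) : k[X]) = C (1 / 4) * C e1 ^ 2 := by
          rw [← C_pow, ← C_mul]
          congr 1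
          ring
        have t5 : (C (e1 ^ 3 / 64) : k[X]) = C (1 / 4) ^ 3 * C e1 ^ 3 := by
          rw [← C_pow, ← C_pow, ← C_mul]
          congr 1
          ring
        have t6 : 4 * (C (1 / 4) : k[X]) = 1 := by
          rw [← C_ofNat, ← C_mul, ← C_1]
          congr 1
          norm_num
        rw [t1, t2, t3, t4, t5]
        linear_combination (-(C e1 * X ^ 2) + C (1 / 4) * C e1 ^ 2 * X) * t6
    · -- the inverse
      have hinv : (j0⁻¹) ^ 2 = ξ⁻¹ := by rw [inv_pow]
      have hc : ∀ a : k, Commute (a • (1 : D)) ξ⁻¹ := fun a =>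
        ((Commute.one_left ξ⁻¹).smul_left a)
      refine ⟨j0⁻¹, Or.inr (Or.inl rfl), e2 / e3, e1 / e3, 1 / e3, ?_, ?_, ?_⟩
      · rw [hinv]
        have g1 : ξ⁻¹ ^ 3 * ξ ^ 3 = 1 := by
          rw [← Commute.mul_pow (Commute.inv_left₀ (Commute.refl ξ)), inv_mul_cancel₀ hξ0, one_pow]
        have g2 : ξ⁻¹ ^ 2 * ξ ^ 2 = 1 := by
          rw [← Commute.mul_pow (Commute.inv_left₀ (Commute.refl ξ)), inv_mul_cancel₀ hξ0, one_pow]
        have g3 : ξ⁻¹ ^ 3 * (e1 • ξ ^ 2 - e2 • ξ + e3 • (1 : D)) =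
            e1 • ξ⁻¹ - e2 • ξ⁻¹ ^ 2 + e3 • ξ⁻¹ ^ 3 := by
          rw [mul_add, mul_sub, mul_smul_comm, mul_smul_comm, mul_smul_comm, mul_one]
          have g4 : ξ⁻¹ ^ 3 * ξ ^ 2 = ξ⁻¹ := by
            rw [pow_succ', mul_assoc, g2, mul_one]
          have g5 : ξ⁻¹ ^ 3 * ξ = ξ⁻¹ ^ 2 := by
            rw [pow_succ ξ⁻¹ 2, mul_assoc, inv_mul_cancel₀ hξ0, mul_one]
          rw [g4, g5]
        rw [← hx, g1] at g3
        have g6 : ξ⁻¹ ^ 3 = e3⁻¹ • (1 - e1 • ξ⁻¹ + e2 • ξ⁻¹ ^ 2) := by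
          rw [g3]
          have : e1 • ξ⁻¹ - e2 • ξ⁻¹ ^ 2 + e3 • ξ⁻¹ ^ 3 - e1 • ξ⁻¹ + e2 • ξ⁻¹ ^ 2 =
              e3 • ξ⁻¹ ^ 3 := by abel
          rw [this, smul_smul, inv_mul_cancel₀ he3, one_smul]
        rw [g6, smul_add, smul_sub, smul_smul, smul_smul, div_eq_inv_mul, div_eq_inv_mul, one_div]
        abel
      · intro c hc'
        rw [hinv] at hc'
        have hc0 : c ≠ 0 := by
          rintro rfl
          rw [map_zero] at hc'
          exact inv_ne_zero hξ0 hc'.symm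
        have g7 : ξ = (c⁻¹) • (1 : D) := by
          rw [← inv_inv ξ, ← hc', ← map_inv₀, Algebra.algebraMap_eq_smul_one]
        have := hli (c⁻¹) (-1) 0 (by
          rw [← g7, neg_smul, one_smul, zero_smul, add_zero, add_neg_cancel])
        exact one_ne_zero (neg_eq_zero.mp this.2.1)
      · intro h
        apply c2
        field_simp at h
        linear_combination h
  · refine ⟨j0, Or.inl rfl, e1, e2, e3, hx, fun c hc => ?_, c1⟩
    have := hli c (-1) 0 (by
      rw [← Algebra.algebraMap_eq_smul_one, hc, neg_smul, one_smul, zero_smul, add_zero,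
        add_neg_cancel])
    exact one_ne_zero (neg_eq_zero.mp this.2.1)

/-- The form with linear independence. -/
theorem pick_b1' {j0 : D} {e1 e2 e3 : k}
    (hx : (j0 ^ 2) ^ 3 = e1 • (j0 ^ 2) ^ 2 - e2 • j0 ^ 2 + e3 • (1 : D))
    (hli : LinearIndependent k ![(1 : D), j0 ^ 2, (j0 ^ 2) ^ 2]) :
    ∃ p : D, (p = j0 ∨ p = j0⁻¹ ∨ p = (1 + j0 ^ 2) * j0) ∧ ∃ f1 f2 f3 : k,
      (p ^ 2) ^ 3 = f1 • (p ^ 2) ^ 2 - f2 • p ^ 2 + f3 • (1 : D) ∧
      (∀ c : k, algebraMap k D c ≠ p ^ 2) ∧ f1 ^ 2 ≠ 4 * f2 := by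
  refine pick_b1 hx fun a b c h => ?_
  have h1 := Fintype.linearIndependent_iff.mp hli ![a, b, c] (by
    rw [Fin.sum_univ_three]
    exact h)
  exact ⟨h1 0, h1 1, h1 2⟩

end pick

end Vale.Agent.P011.H872
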