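import Vale.Agent.P011.H359.PenD
import Mathlib.Algebra.CharZero.Infinite

/-!
# The pencil of `j` and `4 j³` is nondegenerate
-/

open Polynomial

set_option linter.unusedSectionVars false

namespace Vale.Agent.P011.H872

open Vale.Agent.P011.H359

variable {k D Ω : Type} [Field k] [Ring D] [Algebra k D] [Field Ω] [Algebra k Ω]

/-- The trace of a polynomial in `j ^ 2`. -/
theorem tr_aeval {r0 r1 r2 : Ω} (tr : D →ₗ[k] k) (j : D)
    (hp : ∀ n : ℕ, algebraMap k Ω (tr (j ^ (2 * n))) = r0 ^ n + r1 ^ n + r2 ^ n) (q : k[X]) :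
    algebraMap k Ω (tr (aeval (j ^ 2) q)) = aeval r0 q + aeval r1 q + aeval r2 q := by
  induction q using Polynomial.induction_on' with
  | add p q hp hq =>
    rw [map_add (aeval (j ^ 2)), map_add tr, map_add (algebraMap k Ω), hp, hq, map_add (aeval r0),
      map_add (aeval r1), map_add (aeval r2)]
    ring
  | monomial n a =>
    rw [aeval_monomial, aeval_monomial, aeval_monomial, aeval_monomial, ← Algebra.smul_def,
      map_smul, smul_eq_mul, map_mul, ← pow_mul, hp]
    ring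

/-- The powers of the pencil. -/
theorem pow_pencil (j : D) (T : k) (m : ℕ) :
    (j + T • ((4 : k) • j ^ 3)) ^ (2 * m) =
      aeval (j ^ 2) (((1 + C (4 * T) * X) ^ 2 * X) ^ m : k[X]) := by
  have h1 : aeval (j ^ 2) ((1 + C (4 * T) * X) : k[X]) = 1 + (4 * T) • j ^ 2 := by
    rw [map_add, map_one, map_mul, aeval_C, aeval_X, Algebra.smul_def]
  have h2 : j + T • ((4 : k) • j ^ 3) = (1 + (4 * T) • j ^ 2) * j := by
    rw [add_mul, one_mul, smul_mul_assoc, ← pow_succ, smul_smul, mul_comm T 4]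
  have h3 : Commute (1 + (4 * T) • j ^ 2) j := by
    refine (Commute.one_left j).add_left (Commute.smul_left ?_ _)
    exact (Commute.refl j).pow_left 2
  rw [h2, pow_mul, map_pow, map_mul, map_pow, aeval_X, h1, h3.mul_pow]

/-- The power sums of the pencil. -/
theorem pwr_map [CharZero Ω] {r0 r1 r2 : Ω} (tr : D →ₗ[k] k) (j : D)
    (hp : ∀ n : ℕ, algebraMap k Ω (tr (j ^ (2 * n))) = r0 ^ n + r1 ^ n + r2 ^ n) (m : ℕ) :
    (pwr tr j ((4 : k) • j ^ 3) (2 * m)).map (algebraMap k Ω) =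
      sp r0 ^ m + sp r1 ^ m + sp r2 ^ m := by
  have h0 : CharZero k := (RingHom.charZero_iff (algebraMap k Ω).injective).mpr inferInstance
  apply eq_of_infinite_eval_eq
  refine Set.Infinite.mono ?_ (Set.infinite_range_of_injective (algebraMap k Ω).injective)
  rintro _ ⟨T, rfl⟩
  change eval _ _ = eval _ _
  rw [eval_map, eval₂_at_apply, pwr_eval, pow_pencil, tr_aeval tr j hp, eval_add, eval_add,
    eval_pow, eval_pow, eval_pow, sp_eval, sp_eval, sp_eval]
  simp only [map_pow, map_mul, map_add, map_one, aeval_X, aeval_C, map_ofNat]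

/-- **The pencil `(j, 4 j³)` is nondegenerate.** -/
theorem cop_deg [IsAlgClosed Ω] [CharZero Ω] {r0 r1 r2 : Ω} (h01 : r0 ≠ r1) (h02 : r0 ≠ r2)
    (h12 : r1 ≠ r2) (hr0 : r0 ≠ 0) (hr1 : r1 ≠ 0) (hr2 : r2 ≠ 0)
    (hne : (r0 + r1 + r2) ^ 2 ≠ 4 * (r0 * r1 + r0 * r2 + r1 * r2)) (tr : D →ₗ[k] k) (j : D)
    (hp : ∀ n : ℕ, algebraMap k Ω (tr (j ^ (2 * n))) = r0 ^ n + r1 ^ n + r2 ^ n) :
    Cop tr j ((4 : k) • j ^ 3) := by
  have h0 : CharZero k := (RingHom.charZero_iff (algebraMap k Ω).injective).mpr inferInstance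
  have e1 : (PE1 tr j ((4 : k) • j ^ 3)).map (algebraMap k Ω) = sp r0 + sp r1 + sp r2 := by
    have := pwr_map tr j hp 1
    rw [pow_one, pow_one, pow_one] at this
    exact this
  have p4 := pwr_map tr j hp 2
  have p6 := pwr_map tr j hp 3
  have i2 : (C (1 / 2) : k[X]).map (algebraMap k Ω) * 2 = 1 := by
    rw [map_C, ← C_ofNat, ← C_mul, map_div₀, map_one, map_ofNat, one_div,
      inv_mul_cancel₀ two_ne_zero, C_1]
  have i6 : (C (1 / 6) : k[X]).map (algebraMap k Ω) * 6 = 1 := by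
    rw [map_C, ← C_ofNat, ← C_mul, map_div₀, map_one, map_ofNat, one_div,
      inv_mul_cancel₀ (by norm_num), C_1]
  have e2 : (PE2 tr j ((4 : k) • j ^ 3)).map (algebraMap k Ω) =
      sp r0 * sp r1 + sp r0 * sp r2 + sp r1 * sp r2 := by
    rw [PE2, Polynomial.map_mul, Polynomial.map_sub, Polynomial.map_pow, e1, p4]
    linear_combination (sp r0 * sp r1 + sp r0 * sp r2 + sp r1 * sp r2) * i2
  have e3 : (PE3 tr j ((4 : k) • j ^ 3)).map (algebraMap k Ω) = sp r0 * sp r1 * sp r2 := by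
    rw [PE3, Polynomial.map_mul, Polynomial.map_add, Polynomial.map_sub, Polynomial.map_mul,
      Polynomial.map_mul, Polynomial.map_mul, Polynomial.map_pow, Polynomial.map_ofNat,
      Polynomial.map_ofNat, e1, p4, p6]
    linear_combination (sp r0 * sp r1 * sp r2) * i6
  exact deg_res h01 h02 h12 hr0 hr1 hr2 hne e1 e2 e3

end Vale.Agent.P011.H872
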