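import Vale.Agent.P011.H373.S1
import Vale.Agent.P011.H321.AvoidA

/-!
# Finiteness of the bad places of the local norm condition

For `h` outside `K` and `b ≠ 0` the condition `LocD C h V b` holds at almost all places.
-/

open NumberField IsDedekindDomain

namespace Vale.Agent.P011.H872

open H775 (Cub)
open H487 (LocD)
open H373

variable {K D : Type} [Field K] [NumberField K] [DivisionRing D] [Algebra K D] (C : Cub K D)

omit [NumberField K] in
/-- The characteristic polynomial of a noncentral element is not a cube. -/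
theorem not_cube {h : D} (hy : ∀ c : K, h ≠ c • (1 : D)) (h3 : (3 : K) ≠ 0) :
    C.T h ^ 2 - 3 * C.S h ≠ 0 ∨ C.T h ^ 3 - 27 * C.N h ≠ 0 := by
  by_contra hc
  push Not at hc
  obtain ⟨h1, h2⟩ := hc
  refine cp_ne C hy (C.T h / 3) ?_
  rw [cp_eval]
  have h27 : (27 : K) ≠ 0 := by
    have : (27 : K) = 3 ^ 3 := by norm_num
    rw [this]
    exact pow_ne_zero 3 h3
  field_simp
  linear_combination -3 * (C.T h) * h1 + h2

/-- **FIN**: the local norm condition for `K[h]` holds at almost all places. -/
theorem fin_locD {h : D} (hy : ∀ c : K, h ≠ c • (1 : D)) {b : K} (hb : b ≠ 0) :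
    {V : HeightOneSpectrum (𝓞 K) | ¬ LocD C h V b}.Finite := by
  have h3 : (3 : K) ≠ 0 := by norm_num
  have key : ∀ x : K, {V : HeightOneSpectrum (𝓞 K) | 1 < V.valuation K x}.Finite := by
    intro x
    by_cases hx : x = 0
    · refine Set.Finite.subset Set.finite_empty fun V hV => ?_
      change 1 < V.valuation K x at hV
      rw [hx, map_zero] at hV
      exact absurd hV not_lt_zero
    · exact (H321.Avoid.hos_finite hx).subset fun V hV => ne_of_gt hV
  have hfin : ∃ P : Set (HeightOneSpectrum (𝓞 K)), P.Finite ∧ ∀ V ∉ P,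
      V.valuation K (C.T h ^ 2 - 3 * C.S h) = 1 ∨ V.valuation K (C.T h ^ 3 - 27 * C.N h) = 1 := by
    rcases not_cube C hy h3 with h1 | h1
    · exact ⟨_, H321.Avoid.hos_finite (R := 𝓞 K) h1, fun V hV => Or.inl (not_not.mp hV)⟩
    · exact ⟨_, H321.Avoid.hos_finite (R := 𝓞 K) h1, fun V hV => Or.inr (not_not.mp hV)⟩
  obtain ⟨P, hP, hP1⟩ := hfin
  refine ((((((H321.Avoid.hos_finite (R := 𝓞 K) h3).union (H321.Avoid.hos_finite hb)).union
    (key (C.T h))).union (key (C.S h))).union (key (C.N h))).union hP).subset ?_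
  intro V hV
  by_contra hc
  simp only [Set.mem_union, Set.mem_ofPred_eq, not_or, not_not, not_lt] at hc
  obtain ⟨⟨⟨⟨⟨v3, vb⟩, vT⟩, vS⟩, vN⟩, vP⟩ := hc
  apply hV
  refine locD_notcube' C hy V v3 vT vS vN ?_ vb
  rintro ⟨c, hc, k1, k2, k3⟩
  have w3 : V.valuation K (3 : K) ≤ 1 := v3.le
  have wc3 : V.valuation K (3 * c) ≤ 1 := by
    rw [map_mul, v3, one_mul]
    exact hc
  rcases hP1 V vP with h1 | h1
  · have e : C.T h ^ 2 - 3 * C.S h =
        (C.T h - 3 * c) * (C.T h + 3 * c) - 3 * (C.S h - 3 * c ^ 2) := by ring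
    have l : V.valuation K (C.T h ^ 2 - 3 * C.S h) < 1 := by
      rw [e]
      refine (V.valuation K).map_sub_lt ?_ ?_
      · rw [map_mul]
        exact mul_lt_one_of_nonneg_of_lt_one_left zero_le k1
          ((V.valuation K).map_add_le vT wc3)
      · rw [map_mul, v3, one_mul]
        exact k2
    exact absurd h1 l.ne
  · have e : C.T h ^ 3 - 27 * C.N h =
        (C.T h - 3 * c) * (C.T h ^ 2 + 3 * c * C.T h + (3 * c) ^ 2) -
          3 ^ 3 * (C.N h - c ^ 3) := by ring
    have l : V.valuation K (C.T h ^ 3 - 27 * C.N h) < 1 := by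
      rw [e]
      refine (V.valuation K).map_sub_lt ?_ ?_
      · rw [map_mul]
        refine mul_lt_one_of_nonneg_of_lt_one_left zero_le k1
          ((V.valuation K).map_add_le ((V.valuation K).map_add_le ?_ ?_) ?_)
        · rw [map_pow]
          exact pow_le_one' vT 2
        · rw [map_mul]
          exact mul_le_one' wc3 vT
        · rw [map_pow]
          exact pow_le_one' wc3 2
      · rw [map_mul, map_pow, v3, one_pow, one_mul]
        exact k3
    exact absurd h1 l.ne

end Vale.Agent.P011.H872
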