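import Vale.Agent.P011.H872.LocSpl
import Vale.Agent.P011.H775.Inf
import Vale.Agent.P011.H211.SkLPt

/-!
# The local points at infinity

At a finite place outside `Tdiv` the Skolem equation at `(t, 0)` has a point over the completion or
over a quadratic extension of the completion.
-/

open NumberField IsDedekindDomain Module TensorProduct

set_option linter.unusedSectionVars false

namespace Vale.Agent.P011.H872

open Vale.Agent.P011.Arith Vale.Agent.P011.Even Vale.Agent.P011.Two Vale.Agent.P011.One
  Vale.Agent.P011.W Vale.Agent.P011.H775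

variable {k K D F : Type} [Field k] [NumberField k] [Field K] [NumberField K] [StarRing K]
  [DivisionRing D] [StarRing D] [Algebra k K] [Algebra k D] [Algebra K D] [IsScalarTower k K D]
  [FiniteDimensional K D] [Algebra.IsCentral K D] {d : kˣ} {s : K}
  [Field F] [Algebra k F] [FiniteDimensional k F] [Algebra.IsSeparable k F]
  {C : Cub K D} {φ : F →ₐ[k] D}

/-- **The local points at infinity.** -/
theorem exists_point_loc (hS : Setting k K D d s) (hdeg : finrank K D = 3 ^ 2) (M : Dat C φ)
    {v : HeightOneSpectrum (𝓞 k)} (hv : (Sum.inl v : Pl k) ∉ Tdiv k K D) (t : F) :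
    (∃ f : v.adicCompletion k ⊗[k] F, Algebra.norm (v.adicCompletion k) f +
      Algebra.trace (v.adicCompletion k) (v.adicCompletion k ⊗[k] F) ((1 ⊗ₜ M.A (t, 0)) * f) +
        algebraMap k (v.adicCompletion k) (M.G (t, 0)) = 0) ∨
    ∃ (Ω : Type) (_ : Field Ω) (_ : Algebra k Ω) (_ : Algebra (v.adicCompletion k) Ω)
      (_ : IsScalarTower k (v.adicCompletion k) Ω), finrank (v.adicCompletion k) Ω = 2 ∧
      ∃ f : Ω ⊗[k] F, Algebra.norm Ω f +
        Algebra.trace Ω (Ω ⊗[k] F) ((1 ⊗ₜ M.A (t, 0)) * f) +
          algebraMap k Ω (M.G (t, 0)) = 0 := by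
  rcases exists_split hS Nat.prime_three hdeg hv with ⟨ψ, h⟩ | h
  · left
    let _ : Algebra K (v.adicCompletion k) := (ψ : K →+* v.adicCompletion k).toAlgebra
    have h2 : IsScalarTower k K (v.adicCompletion k) :=
      IsScalarTower.of_algebraMap_eq fun c => (ψ.commutes c).symm
    have h3 : CharZero (v.adicCompletion k) :=
      charZero_of_injective_algebraMap (algebraMap k (v.adicCompletion k)).injective
    obtain ⟨g⟩ := h
    exact M.exists_point_inf t g
  · right
    obtain ⟨Ω, _, _, _, _, h1, h2, h3, ⟨g⟩⟩ := h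
    have h4 : CharZero Ω := charZero_of_injective_algebraMap (algebraMap k Ω).injective
    exact ⟨Ω, _, _, _, h1, h3, M.exists_point_inf t g⟩

/-- **The local condition of the Skolem surface at infinity holds at every finite place outside
`Tdiv`.** -/
theorem lPt_inf (hS : Setting k K D d s) (hdeg : finrank K D = 3 ^ 2) (M : Dat C φ)
    {v : HeightOneSpectrum (𝓞 k)} (hv : (Sum.inl v : Pl k) ∉ Tdiv k K D) (t : F) :
    H211.LPt v (M.A (t, 0)) (M.G (t, 0)) := by
  rcases exists_point_loc hS hdeg M hv t with h | ⟨Ω, _, _, _, _, h2, h3⟩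
  · exact Or.inr h
  · exact H211.locPt_of_quad M.H.hF v h2 h3

end Vale.Agent.P011.H872
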