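import Vale.Agent.P011.Even.LocModel
import Vale.Agent.P011.One.SplitLT

/-!
# Local splittings of an algebra of prime degree with an involution of the second kind

At a finite place which does not belong to `Tdiv` the algebra is split by the completion, if the
centre embeds, and by a quadratic extension of the completion in general.
-/

open NumberField IsDedekindDomain Module TensorProduct

set_option linter.unusedSectionVars false

namespace Vale.Agent.P011.H872

open Vale.Agent.P011.Arith Vale.Agent.P011.Even Vale.Agent.P011.Two Vale.Agent.P011.One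
  Vale.Agent.P011.W

section alg

variable {K D : Type} [Field K] [DivisionRing D] [Algebra K D] [FiniteDimensional K D]
  [Algebra.IsCentral K D]

/-- An algebra of prime degree which is not a division algebra over a field is split by it. -/
theorem nonempty_split {p : ℕ} (hp : p.Prime) (hdeg : finrank K D = p ^ 2) {F : Type} [Field F]
    [Algebra K F] (h : ∃ x : F ⊗[K] D, x ≠ 0 ∧ ¬ IsUnit x) :
    Nonempty (D →ₐ[K] Matrix (Fin p) (Fin p) F) := by
  obtain ⟨r, hr0, E, _, _, _, _, ψ, hψ⟩ := P011S.exists_wed (E := F) hdeg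
  have hr := two_le_of_not_unit (ψ : F ⊗[K] D ≃+* Matrix (Fin r) (Fin r) E) h
  have hdvd : r ∣ p := by
    have h1 : r ^ 2 ∣ p ^ 2 := ⟨_, hψ.symm⟩
    exact (Nat.pow_dvd_pow_iff two_ne_zero).mp h1
  have hrp : r = p := by
    rcases (Nat.dvd_prime hp).mp hdvd with h1 | h1
    · omega
    · exact h1
  subst hrp
  have hE : finrank F E = 1 := by
    have h1 : 0 < r ^ 2 := pow_pos (by omega) 2
    exact Nat.eq_of_mul_eq_mul_left h1 (by rw [hψ, mul_one])
  have hbij : Function.Bijective (algebraMap F E) := by
    refine ⟨(algebraMap F E).injective, fun x => ?_⟩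
    obtain ⟨c, hc⟩ := (finrank_eq_one_iff_of_nonzero' (1 : E) one_ne_zero).mp hE x
    exact ⟨c, by rw [Algebra.algebraMap_eq_smul_one, hc]⟩
  let e : F ≃ₐ[F] E := AlgEquiv.ofBijective (Algebra.ofId F E) hbij
  let g : F ⊗[K] D →ₐ[F] Matrix (Fin r) (Fin r) F :=
    (e.symm : E →ₐ[F] F).mapMatrix.comp (ψ : F ⊗[K] D →ₐ[F] Matrix (Fin r) (Fin r) E)
  exact ⟨(g.restrictScalars K).comp Algebra.TensorProduct.includeRight⟩

end alg

section places

variable {k K D : Type} [Field k] [NumberField k] [Field K] [NumberField K] [StarRing K]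
  [DivisionRing D] [StarRing D] [Algebra k K] [Algebra k D] [Algebra K D] [IsScalarTower k K D]
  {d : kˣ} {s : K}

/-- **The places which split in the centre.** -/
theorem split_of_hom (hS : Setting k K D d s) {p : ℕ} (hp : p.Prime)
    (hdeg : finrank K D = p ^ 2) {v : HeightOneSpectrum (𝓞 k)}
    (hv : (Sum.inl v : Pl k) ∉ Tdiv k K D) (φ : K →ₐ[k] v.adicCompletion k) :
    letI := (φ : K →+* v.adicCompletion k).toAlgebra
    Nonempty (D →ₐ[K] Matrix (Fin p) (Fin p) (v.adicCompletion k)) := by
  have := hS.fin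
  have := hS.cen
  let _ : Algebra K (v.adicCompletion k) := (φ : K →+* v.adicCompletion k).toAlgebra
  refine nonempty_split hp hdeg ?_
  by_contra hcon
  push Not at hcon
  exact hv ⟨v, rfl, φ, hcon⟩

omit [NumberField K] in
/-- **The places which do not split in the centre.** -/
theorem split_of_nonsplit (hS : Setting k K D d s) {n : ℕ} (hn : n ≠ 0)
    (hdeg : finrank K D = n ^ 2) {v : HeightOneSpectrum (𝓞 k)}
    (hv : d ∉ LS (v.valuation k)) :
    ∃ (Ω : Type) (_ : Field Ω) (_ : Algebra (v.adicCompletion k) Ω) (_ : Algebra K Ω)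
      (_ : Algebra k Ω) (_ : IsScalarTower k (v.adicCompletion k) Ω) (_ : IsScalarTower k K Ω),
      finrank (v.adicCompletion k) Ω = 2 ∧ Nonempty (D →ₐ[K] Matrix (Fin n) (Fin n) Ω) := by
  obtain ⟨L, _, _, _, ρ, G, hfix, hL2, -, -, -⟩ := exists_local_model hS hdeg v hv
  have : NeZero n := ⟨hn⟩
  let ι : K → Matrix (Fin n) (Fin n) L := fun c => ρ (1 ⊗ₜ algebraMap K D c)
  have hc : ∀ c : K, ∃ a : L, ι c = Matrix.scalar (Fin n) a := by
    intro c
    have h1 : ∀ M : Matrix (Fin n) (Fin n) L, Commute (ι c) M := by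
      intro M
      obtain ⟨x, rfl⟩ := ρ.surjective M
      change ρ _ * ρ x = ρ x * ρ _
      rw [← map_mul, ← map_mul]
      congr 1
      induction x using TensorProduct.induction_on with
      | zero => rw [mul_zero, zero_mul]
      | tmul a y => rw [Algebra.TensorProduct.tmul_mul_tmul, Algebra.TensorProduct.tmul_mul_tmul,
          one_mul, mul_one, Algebra.commutes]
      | add x y hx hy => rw [mul_add, add_mul, hx, hy]
    obtain ⟨a, ha⟩ := Matrix.mem_range_scalar_of_commute_single (M := ι c)
      (fun i j _ => (h1 _).symm)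
    exact ⟨a, ha.symm⟩
  choose ψ0 hψ0 using hc
  have hinj : Function.Injective (Matrix.scalar (Fin n) : L →+* Matrix (Fin n) (Fin n) L) :=
    fun a b h => Matrix.scalar_inj.mp h
  let ψ : K →+* L :=
    { toFun := ψ0
      map_one' := by
        apply hinj
        rw [← hψ0, map_one]
        change ρ (1 ⊗ₜ algebraMap K D 1) = 1
        rw [map_one, ← Algebra.TensorProduct.one_def, map_one]
      map_mul' := fun a b => by
        apply hinj
        rw [map_mul, ← hψ0, ← hψ0, ← hψ0]
        change ρ _ = ρ _ * ρ _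
        rw [← map_mul, Algebra.TensorProduct.tmul_mul_tmul, one_mul, map_mul]
      map_zero' := by
        apply hinj
        rw [← hψ0, map_zero]
        change ρ (1 ⊗ₜ algebraMap K D 0) = 0
        rw [map_zero, TensorProduct.tmul_zero, map_zero]
      map_add' := fun a b => by
        apply hinj
        rw [map_add, ← hψ0, ← hψ0, ← hψ0]
        change ρ _ = ρ _ + ρ _
        rw [← map_add, ← TensorProduct.tmul_add, map_add] }
  let _ : Algebra K L := ψ.toAlgebra
  let _ : Algebra k L := ((algebraMap (v.adicCompletion k) L).comp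
    (algebraMap k (v.adicCompletion k))).toAlgebra
  have h1 : IsScalarTower k (v.adicCompletion k) L := IsScalarTower.of_algebraMap_eq' rfl
  have h2 : IsScalarTower k K L := IsScalarTower.of_algebraMap_eq fun c => by
    apply hinj
    change _ = Matrix.scalar (Fin n) (ψ0 _)
    rw [← hψ0]
    change _ = ρ _
    rw [← IsScalarTower.algebraMap_apply k K D]
    have h3 : (1 : v.adicCompletion k) ⊗ₜ[k] algebraMap k D c =
        algebraMap (v.adicCompletion k) _ (algebraMap k (v.adicCompletion k) c) := by
      rw [Algebra.TensorProduct.algebraMap_apply, Algebra.algebraMap_eq_smul_one,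
        Algebra.algebraMap_eq_smul_one, TensorProduct.tmul_smul, TensorProduct.smul_tmul',
        Algebra.smul_def, smul_eq_mul]
    rw [h3, AlgEquiv.commutes]
    rfl
  refine ⟨L, _, _, _, _, h1, h2, hL2, ⟨?_⟩⟩
  exact
    { toFun := fun x => ρ (1 ⊗ₜ x)
      map_one' := by rw [← Algebra.TensorProduct.one_def, map_one]
      map_mul' := fun x y => by
        rw [← map_mul, Algebra.TensorProduct.tmul_mul_tmul, one_mul]
      map_zero' := by rw [TensorProduct.tmul_zero, map_zero]
      map_add' := fun x y => by rw [TensorProduct.tmul_add, map_add]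
      commutes' := fun c => hψ0 c }

/-- **All finite places outside `Tdiv`.** -/
theorem exists_split (hS : Setting k K D d s) {p : ℕ} (hp : p.Prime)
    (hdeg : finrank K D = p ^ 2) {v : HeightOneSpectrum (𝓞 k)}
    (hv : (Sum.inl v : Pl k) ∉ Tdiv k K D) :
    (∃ φ : K →ₐ[k] v.adicCompletion k,
      letI := (φ : K →+* v.adicCompletion k).toAlgebra
      Nonempty (D →ₐ[K] Matrix (Fin p) (Fin p) (v.adicCompletion k))) ∨
    ∃ (Ω : Type) (_ : Field Ω) (_ : Algebra (v.adicCompletion k) Ω) (_ : Algebra K Ω)
      (_ : Algebra k Ω) (_ : IsScalarTower k (v.adicCompletion k) Ω) (_ : IsScalarTower k K Ω),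
      finrank (v.adicCompletion k) Ω = 2 ∧ Nonempty (D →ₐ[K] Matrix (Fin p) (Fin p) Ω) := by
  by_cases h : d ∈ LS (v.valuation k)
  · left
    obtain ⟨θ, hθ⟩ := (isSquare_iff v d).mpr h
    obtain ⟨φ, -⟩ := exists_lift hS (F := v.adicCompletion k) (θ := θ) (by rw [hθ, sq])
    exact ⟨φ, split_of_hom hS hp hdeg hv φ⟩
  · right
    exact split_of_nonsplit hS hp.ne_zero hdeg h

end places

end Vale.Agent.P011.H872
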