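import Vale.Agent.P011.H872.LocSpl
import Vale.Agent.P011.H775.Inf
import Vale.Agent.P011.H948.ChartC

/-!
# Local symmetric elements of trace zero and norm zero

In the local model at a finite place outside `Tdiv` there is a symmetric element with the
characteristic polynomial `X ^ 3 - X`.
-/

open NumberField IsDedekindDomain Module TensorProduct Matrix

set_option linter.unusedSectionVars false

namespace Vale.Agent.P011.H872

open Vale.Agent.P011.Arith Vale.Agent.P011.Even Vale.Agent.P011.Two Vale.Agent.P011.One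
  Vale.Agent.P011.W Vale.Agent.P011.H775 Vale.Agent.P011.H948

section forms

variable {M : ℕ} {R : Type*} [CommRing R]

/-- A quadratic form in coordinates. -/
def q2 (t : Fin M → Fin M → R) (y : Fin M → R) : R := ∑ i, ∑ j, y i * y j * t i j

/-- A cubic form in coordinates. -/
def q3 (t : Fin M → Fin M → Fin M → R) (y : Fin M → R) : R :=
  ∑ i, ∑ j, ∑ l, y i * y j * y l * t i j l

theorem map_q2 {R' : Type*} [CommRing R'] (φ : R →+* R') (t : Fin M → Fin M → R)
    (y : Fin M → R) : φ (q2 t y) = q2 (fun i j => φ (t i j)) (fun i => φ (y i)) := by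
  simp [q2, map_sum, map_mul]

theorem map_q3 {R' : Type*} [CommRing R'] (φ : R →+* R') (t : Fin M → Fin M → Fin M → R)
    (y : Fin M → R) : φ (q3 t y) = q3 (fun i j l => φ (t i j l)) (fun i => φ (y i)) := by
  simp [q3, map_sum, map_mul]

variable {A V : Type*} [Ring A] [Algebra R A] [AddCommGroup V] [Module R V]

theorem T_sq (T : A →ₗ[R] V) (y : Fin M → R) (a : Fin M → A) :
    T ((∑ i, y i • a i) * (∑ i, y i • a i)) = ∑ i, ∑ j, (y i * y j) • T (a i * a j) := by
  rw [Finset.sum_mul_sum]
  simp only [smul_mul_smul_comm, map_sum, map_smul]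

theorem T_cube (T : A →ₗ[R] V) (y : Fin M → R) (a : Fin M → A) :
    T ((∑ i, y i • a i) * (∑ i, y i • a i) * (∑ i, y i • a i)) =
      ∑ i, ∑ j, ∑ l, (y i * y j * y l) • T (a i * a j * a l) := by
  have h1 : (∑ i, y i • a i) * (∑ i, y i • a i) * (∑ i, y i • a i) =
      ∑ i, ∑ j, ∑ l, (y i * y j * y l) • (a i * a j * a l) := by
    rw [Finset.sum_mul_sum, Finset.sum_mul]
    refine Finset.sum_congr rfl fun i _ => ?_
    rw [Finset.sum_mul_sum]
    refine Finset.sum_congr rfl fun j _ => Finset.sum_congr rfl fun l _ => ?_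
    rw [smul_mul_smul_comm, smul_mul_smul_comm]
  rw [h1]
  simp only [map_sum, map_smul]

theorem T_cube_two (T : A →ₗ[R] V) (y : Fin M → R) (a : Fin M → A) :
    T ((∑ i, y i • a i) * (∑ i, y i • a i) * (∑ i, y i • a i)) +
      T ((∑ i, y i • a i) * (∑ i, y i • a i) * (∑ i, y i • a i)) =
      ∑ i, ∑ j, ∑ l, (y i * y j * y l) • (T (a i * a j * a l) + T (a l * a j * a i)) := by
  have h1 : T ((∑ i, y i • a i) * (∑ i, y i • a i) * (∑ i, y i • a i)) =
      ∑ i, ∑ j, ∑ l, (y i * y j * y l) • T (a l * a j * a i) := by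
    rw [T_cube]
    rw [Finset.sum_comm]
    have h2 : ∀ j : Fin M, ∑ i, ∑ l, (y i * y j * y l) • T (a i * a j * a l) =
        ∑ i, ∑ l, (y i * y j * y l) • T (a l * a j * a i) := by
      intro j
      rw [Finset.sum_comm]
      refine Finset.sum_congr rfl fun i _ => Finset.sum_congr rfl fun l _ => ?_
      congr 1
      ring
    rw [Finset.sum_congr rfl fun j _ => h2 j]
    rw [Finset.sum_comm]
  conv_lhs => rw [h1]
  nth_rewrite 1 [← h1]
  rw [T_cube, ← Finset.sum_add_distrib]
  refine Finset.sum_congr rfl fun i _ => ?_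
  rw [← Finset.sum_add_distrib]
  refine Finset.sum_congr rfl fun j _ => ?_
  rw [← Finset.sum_add_distrib]
  refine Finset.sum_congr rfl fun l _ => ?_
  rw [smul_add]

end forms

section proj

variable {k K D : Type} [Field k] [Field K] [StarRing K] [DivisionRing D] [StarRing D]
  [Algebra k K] [Algebra k D] [Algebra K D] [IsScalarTower k K D]

/-- The projection to the symmetric elements of trace zero. -/
noncomputable def prL (hk : ∀ c : k, star (algebraMap k K c) = algebraMap k K c) {C : Cub K D}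
    (h : SCub C) : D →ₗ[k] D where
  toFun x := (2⁻¹ : K) • (x + star x) - ((3⁻¹ : K) * C.T ((2⁻¹ : K) • (x + star x))) • (1 : D)
  map_add' x y := by
    simp only [star_add, smul_add, map_add, mul_add, add_smul]
    abel
  map_smul' c x := by
    have h2 : ∀ z : D, c • z = algebraMap k K c • z := fun z => (algebraMap_smul K c z).symm
    rw [RingHom.id_apply, h2 x, h.smul, hk, ← smul_add, h2, smul_comm (2⁻¹ : K), map_smul C.T,
      smul_eq_mul, smul_sub, smul_smul (algebraMap k K c) _ (1 : D), mul_left_comm]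

variable (hk : ∀ c : k, star (algebraMap k K c) = algebraMap k K c) {C : Cub K D} (h : SCub C)

theorem prL_apply (x : D) : prL hk h x =
    (2⁻¹ : K) • (x + star x) - ((3⁻¹ : K) * C.T ((2⁻¹ : K) • (x + star x))) • (1 : D) := rfl

omit [Algebra K D] [IsScalarTower k K D] [Algebra k D] [Algebra k K] [Field k] [StarRing D]
  [DivisionRing D] in
theorem star_two_inv : star (2⁻¹ : K) = 2⁻¹ := by
  rw [star_inv₀]
  congr 1
  exact star_ofNat 2

omit [Algebra K D] [IsScalarTower k K D] [Algebra k D] [Algebra k K] [Field k] [StarRing D]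
  [DivisionRing D] in
theorem star_three_inv : star (3⁻¹ : K) = 3⁻¹ := by
  rw [star_inv₀]
  congr 1
  exact star_ofNat 3

theorem T_prL (h3 : (3 : K) ≠ 0) (x : D) : C.T (prL hk h x) = 0 := by
  rw [prL_apply, map_sub, map_smul C.T ((3⁻¹ : K) * C.T ((2⁻¹ : K) • (x + star x))), C.T_one,
    smul_eq_mul, mul_comm (3⁻¹ : K), mul_assoc, inv_mul_cancel₀ h3, mul_one, sub_self]

theorem star_prL (x : D) : star (prL hk h x) = prL hk h x := by
  have h1 : star ((2⁻¹ : K) • (x + star x)) = (2⁻¹ : K) • (x + star x) := by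
    rw [h.smul, star_two_inv, star_add, star_star, add_comm]
  rw [prL_apply, star_sub, h1, h.smul, star_one, star_mul', star_three_inv, h.T_symm h1]

theorem prL_eq (h2 : (2 : K) ≠ 0) {x : D} (hx : star x = x)
    (hT : C.T x = 0) : prL hk h x = x := by
  have h2 : (2⁻¹ : K) • (x + star x) = x := by
    rw [hx, ← two_smul K, smul_smul, inv_mul_cancel₀ h2, one_smul]
  rw [prL_apply, h2, hT, mul_zero, zero_smul, sub_zero]

/-- The decomposition of a symmetric element. -/
theorem symm_eq (h2 : (2 : K) ≠ 0) {x : D} (hx : star x = x) :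
    x = prL hk h x + ((3⁻¹ : K) * C.T x) • (1 : D) := by
  have h2 : (2⁻¹ : K) • (x + star x) = x := by
    rw [hx, ← two_smul K, smul_smul, inv_mul_cancel₀ h2, one_smul]
  rw [prL_apply, h2, sub_add_cancel]

/-- The symmetric part. -/
theorem half_eq (x : D) : (2⁻¹ : K) • (x + star x) =
    prL hk h x + ((3⁻¹ : K) * C.T ((2⁻¹ : K) • (x + star x))) • (1 : D) := by
  rw [prL_apply, sub_add_cancel]

/-- Every element is a combination of projections and scalars. -/
theorem full_eq (h2 : (2 : K) ≠ 0) {s : K} (hs0 : s ≠ 0) (hs : star s = -s) (x : D) :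
    ∃ c : K, x = prL hk h x + s • prL hk h (s⁻¹ • x) + c • (1 : D) := by
  have e1 := half_eq hk h x
  have e2 := half_eq hk h (s⁻¹ • x)
  refine ⟨(3⁻¹ : K) * C.T ((2⁻¹ : K) • (x + star x)) +
    s * ((3⁻¹ : K) * C.T ((2⁻¹ : K) • (s⁻¹ • x + star (s⁻¹ • x)))), ?_⟩
  have e3 : x = (2⁻¹ : K) • (x + star x) + s • (2⁻¹ : K) • (s⁻¹ • x + star (s⁻¹ • x)) := by
    have e4 : s • star (s⁻¹ • x) = -star x := by
      rw [h.smul, star_inv₀, hs, smul_smul, inv_neg, mul_neg, mul_inv_cancel₀ hs0, neg_smul,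
        one_smul]
    rw [smul_comm s (2⁻¹ : K), smul_add s, smul_smul s, mul_inv_cancel₀ hs0, one_smul, e4,
      ← smul_add, add_add_add_comm, add_neg_cancel, add_zero, ← two_smul K x, smul_smul,
      inv_mul_cancel₀ h2, one_smul]
  calc x = (2⁻¹ : K) • (x + star x) + s • (2⁻¹ : K) • (s⁻¹ • x + star (s⁻¹ • x)) := e3
    _ = (prL hk h x + ((3⁻¹ : K) * C.T ((2⁻¹ : K) • (x + star x))) • (1 : D)) +
        s • (prL hk h (s⁻¹ • x) +
          ((3⁻¹ : K) * C.T ((2⁻¹ : K) • (s⁻¹ • x + star (s⁻¹ • x)))) • (1 : D)) :=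
        congrArg₂ (fun a b => a + s • b) e1 e2
    _ = _ := by
      rw [smul_add s, add_smul, mul_smul s]
      abel

end proj

end Vale.Agent.P011.H872
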