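import Vale.Agent.P011.H872.RootA
import Vale.Agent.P011.One.TwoModel

/-!
# Coordinates of the diagonal matrix in the local model

At a finite place outside `Tdiv` a matrix with the characteristic polynomial `X ^ 3 - X` is a
combination of the images of symmetric elements of trace zero.
-/

open NumberField IsDedekindDomain Module TensorProduct Matrix

set_option linter.unusedSectionVars false

namespace Vale.Agent.P011.H872

open Vale.Agent.P011.Arith Vale.Agent.P011.Even Vale.Agent.P011.Two Vale.Agent.P011.One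
  Vale.Agent.P011.W Vale.Agent.P011.H775 Vale.Agent.P011.H948

section coord

variable {k K D F Ω : Type} [Field k] [Field K] [DivisionRing D] [Algebra k K] [Algebra K D]
  [Field F] [Algebra k F] [Field Ω] [Algebra F Ω] [Algebra K Ω] [Algebra k Ω]
  [IsScalarTower k F Ω] [IsScalarTower k K Ω]

/-- The forms take the values of the diagonal matrix. -/
theorem coord (g : D →ₐ[K] Matrix (Fin 3) (Fin 3) Ω) (h3 : (3 : Ω) ≠ 0) (C : Cub K D)
    (hT : ∀ x, (g x).trace = algebraMap K Ω (C.T x)) {M : ℕ} {p : Fin M → D}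
    (hp : ∀ i, C.T (p i) = 0) {t2 : Fin M → Fin M → k}
    (ht2 : ∀ i j, algebraMap k K (t2 i j) = C.T (p i * p j)) {t3 : Fin M → Fin M → Fin M → k}
    (ht3 : ∀ i j l, algebraMap k K (t3 i j l) =
      C.T (p i * p j * p l) + C.T (p l * p j * p i))
    {y : Fin M → F} {c : Ω} {m : Matrix (Fin 3) (Fin 3) Ω}
    (hm : m = ∑ i, y i • g (p i) + c • 1) (hm1 : m.trace = 0) (hm2 : (m * m).trace = 2)
    (hm3 : (m * m * m).trace = 0) :
    q2 (fun i j => algebraMap k F (t2 i j)) y = 2 ∧
      q3 (fun i j l => algebraMap k F (t3 i j l)) y = 0 := by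
  have hF : ∀ a : k, algebraMap F Ω (algebraMap k F a) = algebraMap K Ω (algebraMap k K a) := by
    intro a
    rw [← IsScalarTower.algebraMap_apply k F Ω, ← IsScalarTower.algebraMap_apply k K Ω]
  have hc : c = 0 := by
    have h1 : m.trace = 3 * c := by
      rw [hm, trace_add, trace_sum, trace_smul, trace_one, Fintype.card_fin]
      rw [Finset.sum_eq_zero fun i _ => by rw [trace_smul, hT, hp, map_zero, smul_zero], zero_add,
        smul_eq_mul, mul_comm]
      norm_num
    rw [hm1] at h1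
    exact (mul_eq_zero.mp h1.symm).resolve_left h3
  rw [hc, zero_smul, add_zero] at hm
  have e2 := T_sq (traceLinearMap (Fin 3) F Ω) y (fun i => g (p i))
  have e3 := T_cube_two (traceLinearMap (Fin 3) F Ω) y (fun i => g (p i))
  rw [← hm] at e2 e3
  simp only [traceLinearMap_apply, ← map_mul g, hT, ← map_add, ← ht2, ← ht3, ← hF,
    Algebra.smul_def, ← map_mul (algebraMap F Ω)] at e2 e3
  constructor
  · apply (algebraMap F Ω).injective
    rw [map_ofNat, ← hm2, e2, q2, map_sum]
    refine Finset.sum_congr rfl fun i _ => ?_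
    rw [map_sum]
  · apply (algebraMap F Ω).injective
    rw [hm3, add_zero] at e3
    rw [map_zero, e3, q3, map_sum]
    refine Finset.sum_congr rfl fun i _ => ?_
    rw [map_sum]
    refine Finset.sum_congr rfl fun j _ => ?_
    rw [map_sum]

end coord

section iso

/-- An isomorphism with a matrix algebra is a splitting over the centre. -/
theorem exists_alg_of_iso {k K D F L : Type} [Field k] [Field K] [DivisionRing D] [Algebra k K]
    [Algebra k D] [Algebra K D] [IsScalarTower k K D] [Field F] [Algebra k F] [Field L]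
    [Algebra F L] {n : ℕ} (hn : n ≠ 0) (ρ : F ⊗[k] D ≃ₐ[F] Matrix (Fin n) (Fin n) L) :
    ∃ (_ : Algebra K L) (_ : Algebra k L) (_ : IsScalarTower k F L) (_ : IsScalarTower k K L)
      (g : D →ₐ[K] Matrix (Fin n) (Fin n) L), ∀ x, g x = ρ (1 ⊗ₜ x) := by
  have : NeZero n := ⟨hn⟩
  let ι : K → Matrix (Fin n) (Fin n) L := fun c => ρ (1 ⊗ₜ algebraMap K D c)
  have hc : ∀ c : K, ∃ a : L, ι c = Matrix.scalar (Fin n) a := by
    intro c
    have h1 : ∀ M : Matrix (Fin n) (Fin n) L, Commute (ι c) M := by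
      intro M
      obtain ⟨x, rfl⟩ := ρ.surjective M
      change ρ _ * ρ x = ρ x * ρ _
      rw [← map_mul, ← map_mul]
      congr 1
      induction x using TensorProduct.induction_on with
      | zero => rw [mul_zero, zero_mul]
      | tmul a y => rw [Algebra.TensorProduct.tmul_mul_tmul, Algebra.TensorProduct.tmul_mul_tmul,
          one_mul, mul_one, Algebra.commutes]
      | add x y hx hy => rw [mul_add, add_mul, hx, hy]
    obtain ⟨a, ha⟩ := Matrix.mem_range_scalar_of_commute_single (M := ι c)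
      (fun i j _ => (h1 _).symm)
    exact ⟨a, ha.symm⟩
  choose ψ0 hψ0 using hc
  have hinj : Function.Injective (Matrix.scalar (Fin n) : L →+* Matrix (Fin n) (Fin n) L) :=
    fun a b h => Matrix.scalar_inj.mp h
  let ψ : K →+* L :=
    { toFun := ψ0
      map_one' := by
        apply hinj
        rw [← hψ0, map_one]
        change ρ (1 ⊗ₜ algebraMap K D 1) = 1
        rw [map_one, ← Algebra.TensorProduct.one_def, map_one]
      map_mul' := fun a b => by
        apply hinj
        rw [map_mul, ← hψ0, ← hψ0, ← hψ0]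
        change ρ _ = ρ _ * ρ _
        rw [← map_mul, Algebra.TensorProduct.tmul_mul_tmul, one_mul, map_mul]
      map_zero' := by
        apply hinj
        rw [← hψ0, map_zero]
        change ρ (1 ⊗ₜ algebraMap K D 0) = 0
        rw [map_zero, TensorProduct.tmul_zero, map_zero]
      map_add' := fun a b => by
        apply hinj
        rw [map_add, ← hψ0, ← hψ0, ← hψ0]
        change ρ _ = ρ _ + ρ _
        rw [← map_add, ← TensorProduct.tmul_add, map_add] }
  let _ : Algebra K L := ψ.toAlgebra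
  let _ : Algebra k L := ((algebraMap F L).comp (algebraMap k F)).toAlgebra
  have h1 : IsScalarTower k F L := IsScalarTower.of_algebraMap_eq' rfl
  have h2 : IsScalarTower k K L := IsScalarTower.of_algebraMap_eq fun c => by
    apply hinj
    change _ = Matrix.scalar (Fin n) (ψ0 _)
    rw [← hψ0]
    change _ = ρ _
    rw [← IsScalarTower.algebraMap_apply k K D]
    have h3 : (1 : F) ⊗ₜ[k] algebraMap k D c =
        algebraMap F _ (algebraMap k F c) := by
      rw [Algebra.TensorProduct.algebraMap_apply, Algebra.algebraMap_eq_smul_one,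
        Algebra.algebraMap_eq_smul_one, TensorProduct.tmul_smul, TensorProduct.smul_tmul',
        Algebra.smul_def, smul_eq_mul]
    rw [h3, AlgEquiv.commutes]
    rfl
  refine ⟨_, _, h1, h2, ?_, ?_⟩
  · exact
      { toFun := fun x => ρ (1 ⊗ₜ x)
        map_one' := by rw [← Algebra.TensorProduct.one_def, map_one]
        map_mul' := fun x y => by
          rw [← map_mul, Algebra.TensorProduct.tmul_mul_tmul, one_mul]
        map_zero' := by rw [TensorProduct.tmul_zero, map_zero]
        map_add' := fun x y => by rw [TensorProduct.tmul_add, map_add]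
        commutes' := fun c => hψ0 c }
  · intro x
    rfl

end iso

section diag

/-- The diagonal model. -/
def E3 (R : Type*) [CommRing R] : Matrix (Fin 3) (Fin 3) R := Matrix.diagonal ![1, -1, 0]

theorem E3_trace (R : Type*) [CommRing R] : (E3 R).trace = 0 ∧ (E3 R * E3 R).trace = 2 ∧
    (E3 R * E3 R * E3 R).trace = 0 := by
  simp only [E3, Matrix.diagonal_mul_diagonal, Matrix.trace_diagonal, Fin.sum_univ_three]
  refine ⟨?_, ?_, ?_⟩
  · simp
  · simp only [Matrix.cons_val_zero, Matrix.cons_val_one, Matrix.cons_val]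
    norm_num
  · simp

/-- A conjugate of the diagonal model which is symmetric for a hermitian form. -/
theorem exists_sym {L : Type} [Field L] [StarRing L] {G P : Matrix (Fin 3) (Fin 3) L}
    {δ : Fin 3 → L} (hP : IsUnit P) (hPd : P * G * Pᴴ = Matrix.diagonal δ) :
    ∃ m : Matrix (Fin 3) (Fin 3) L, G * m = mᴴ * G ∧ m.trace = 0 ∧ (m * m).trace = 2 ∧
      (m * m * m).trace = 0 := by
  have hPd' : IsUnit P.det := (Matrix.isUnit_iff_isUnit_det P).mp hP
  have hQd' : IsUnit (Pᴴ).det := by
    rw [Matrix.det_conjTranspose]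
    exact hPd'.star
  have hE : (E3 L)ᴴ = E3 L := by
    rw [E3, Matrix.diagonal_conjTranspose]
    congr 1
    ext i
    fin_cases i <;> simp
  have hconj : ∀ X : Matrix (Fin 3) (Fin 3) L, (Pᴴ * X * (Pᴴ)⁻¹).trace = X.trace := by
    intro X
    rw [Matrix.trace_mul_comm, ← mul_assoc, Matrix.nonsing_inv_mul _ hQd', one_mul]
  have hmul : ∀ X Y : Matrix (Fin 3) (Fin 3) L,
      (Pᴴ * X * (Pᴴ)⁻¹) * (Pᴴ * Y * (Pᴴ)⁻¹) = Pᴴ * (X * Y) * (Pᴴ)⁻¹ := by
    intro X Y
    calc (Pᴴ * X * (Pᴴ)⁻¹) * (Pᴴ * Y * (Pᴴ)⁻¹) =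
        Pᴴ * X * ((Pᴴ)⁻¹ * Pᴴ) * Y * (Pᴴ)⁻¹ := by noncomm_ring
      _ = _ := by
        rw [Matrix.nonsing_inv_mul _ hQd']
        noncomm_ring
  refine ⟨Pᴴ * E3 L * (Pᴴ)⁻¹, ?_, ?_, ?_, ?_⟩
  · set m := Pᴴ * E3 L * (Pᴴ)⁻¹ with hm
    have h1 : m * Pᴴ = Pᴴ * E3 L := by
      rw [hm, mul_assoc, Matrix.nonsing_inv_mul _ hQd', mul_one]
    have h2 : P * mᴴ = E3 L * P := by
      have := congrArg Matrix.conjTranspose h1
      rw [Matrix.conjTranspose_mul m, Matrix.conjTranspose_mul Pᴴ (E3 L),
        Matrix.conjTranspose_conjTranspose, hE] at this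
      exact this
    have h3 : P * (G * m) * Pᴴ = P * (mᴴ * G) * Pᴴ := by
      calc P * (G * m) * Pᴴ = P * G * (m * Pᴴ) := by noncomm_ring
        _ = (P * G * Pᴴ) * E3 L := by rw [h1]; noncomm_ring
        _ = E3 L * (P * G * Pᴴ) := by
          rw [hPd, E3, Matrix.diagonal_mul_diagonal, Matrix.diagonal_mul_diagonal]
          congr 1
          ext i
          exact mul_comm _ _
        _ = (E3 L * P) * G * Pᴴ := by noncomm_ring
        _ = P * (mᴴ * G) * Pᴴ := by rw [← h2]; noncomm_ring
    have h4 : IsUnit Pᴴ := (Matrix.isUnit_iff_isUnit_det _).mpr hQd'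
    exact hP.mul_left_cancel (h4.mul_right_cancel h3)
  · rw [hconj]
    exact (E3_trace L).1
  · rw [hmul, hconj]
    exact (E3_trace L).2.1
  · rw [hmul, hmul, hconj]
    exact (E3_trace L).2.2

end diag

section cases

variable {k K D : Type} [Field k] [Field K] [StarRing K] [DivisionRing D] [StarRing D]
  [Algebra k K] [Algebra k D] [Algebra K D] [IsScalarTower k K D]
  (hk : ∀ c : k, star (algebraMap k K c) = algebraMap k K c) {C : Cub K D} (h : SCub C)
  {M : ℕ} (B : Basis (Fin M) k D)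

/-- **The split case.** -/
theorem coord_split [FiniteDimensional K D] [Algebra.IsCentral K D]
    (hdeg : finrank K D = 3 ^ 2) (h2 : (2 : K) ≠ 0) {s : K} (hs0 : s ≠ 0) (hs : star s = -s)
    {F : Type} [Field F] [Algebra k F] [Algebra K F] [IsScalarTower k K F]
    (g : D →ₐ[K] Matrix (Fin 3) (Fin 3) F) (m : Matrix (Fin 3) (Fin 3) F) :
    ∃ (y : Fin M → F) (c : F), m = ∑ i, y i • g (prL hk h (B i)) + c • 1 := by
  let W : Submodule F (Matrix (Fin 3) (Fin 3) F) :=
    Submodule.span F (Set.range fun i => g (prL hk h (B i)))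
  have hW : ∀ x : D, g (prL hk h x) ∈ W := by
    intro x
    have e1 : g (prL hk h x) = ∑ i, algebraMap k F (B.repr x i) • g (prL hk h (B i)) := by
      conv_lhs => rw [← B.sum_repr x]
      rw [map_sum, map_sum]
      refine Finset.sum_congr rfl fun i _ => ?_
      rw [map_smul, ← algebraMap_smul K (B.repr x i) (prL hk h (B i)), map_smul g,
        ← algebraMap_smul F (algebraMap k K (B.repr x i)), ← IsScalarTower.algebraMap_apply]
    rw [e1]
    exact Submodule.sum_mem _ fun i _ => Submodule.smul_mem _ _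
      (Submodule.subset_span ⟨i, rfl⟩)
  have hg : ∀ x : D, g x ∈ W ⊔ Submodule.span F {1} := by
    intro x
    obtain ⟨c, hc⟩ := full_eq hk h h2 hs0 hs x
    rw [hc, map_add, map_add, map_smul g s, map_smul g c, map_one, ← algebraMap_smul F s,
      ← algebraMap_smul F c]
    exact Submodule.add_mem _ (Submodule.mem_sup_left (Submodule.add_mem _ (hW x)
      (Submodule.smul_mem _ _ (hW _)))) (Submodule.mem_sup_right
        (Submodule.smul_mem _ _ (Submodule.subset_span rfl)))
  let b := finBasis K D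
  have hli := split_linInd (n := 3) (by norm_num) (g : D →+* Matrix (Fin 3) (Fin 3) F) b
  have hspan : Submodule.span F (Set.range fun i => (g : D →+* Matrix (Fin 3) (Fin 3) F) (b i)) =
      ⊤ := by
    apply hli.span_eq_top_of_card_eq_finrank'
    rw [Fintype.card_fin, hdeg, Module.finrank_matrix, Fintype.card_fin, finrank_self]
    norm_num
  have hm : m ∈ W ⊔ Submodule.span F {1} := by
    have h1 : m ∈ Submodule.span F
        (Set.range fun i => (g : D →+* Matrix (Fin 3) (Fin 3) F) (b i)) := by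
      rw [hspan]
      exact Submodule.mem_top
    refine Submodule.span_le.mpr ?_ h1
    rintro _ ⟨i, rfl⟩
    exact hg (b i)
  obtain ⟨a, ha, c, hc, rfl⟩ := Submodule.mem_sup.mp hm
  obtain ⟨y, rfl⟩ := (Submodule.mem_span_range_iff_exists_fun F).mp ha
  obtain ⟨e, rfl⟩ := Submodule.mem_span_singleton.mp hc
  exact ⟨y, e, rfl⟩

/-- **The nonsplit case.** -/
theorem coord_nonsplit (h2 : (2 : k) ≠ 0) {F L : Type} [Field F] [Algebra k F] [Field L]
    [Algebra F L] [StarRing L] [Algebra K L] [Algebra k L] [IsScalarTower k F L]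
    [IsScalarTower k K L] (σ : D →ₗ[k] D) (hσ : ∀ x, σ x = star x)
    (ρ : F ⊗[k] D ≃ₐ[F] Matrix (Fin 3) (Fin 3) L) {G : Matrix (Fin 3) (Fin 3) L}
    (hG : IsUnit G) (hρ : ∀ T, G * ρ (σ.baseChange F T) = (ρ T)ᴴ * G)
    (g : D →ₐ[K] Matrix (Fin 3) (Fin 3) L) (hg : ∀ x, g x = ρ (1 ⊗ₜ x))
    {m : Matrix (Fin 3) (Fin 3) L} (hm : G * m = mᴴ * G) :
    ∃ (y : Fin M → F) (c : L), m = ∑ i, y i • g (prL hk h (B i)) + c • 1 := by
  obtain ⟨T, rfl⟩ := ρ.surjective m
  have h1 : σ.baseChange F T = T := by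
    apply ρ.injective
    apply hG.mul_left_cancel
    rw [hρ, hm]
  let b := Algebra.TensorProduct.basis F B
  have h2F : (2 : F) ≠ 0 := by
    rw [← map_ofNat (algebraMap k F) 2]
    exact (_root_.map_ne_zero _).mpr h2
  have h3 : T = ∑ i, b.repr T i • (1 : F) ⊗ₜ[k] B i := by
    conv_lhs => rw [← b.sum_repr T]
    refine Finset.sum_congr rfl fun i _ => ?_
    rw [Algebra.TensorProduct.basis_apply]
  have h4 : T = ∑ i, b.repr T i • (1 : F) ⊗ₜ[k] star (B i) := by
    conv_lhs => rw [← h1, h3]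
    rw [map_sum]
    refine Finset.sum_congr rfl fun i _ => ?_
    rw [map_smul, LinearMap.baseChange_tmul, hσ]
  have h5 : T = ∑ i, ((2⁻¹ : F) * b.repr T i) • (1 : F) ⊗ₜ[k] (B i + star (B i)) := by
    have e : ∀ i, ((2⁻¹ : F) * b.repr T i) • (1 : F) ⊗ₜ[k] (B i + star (B i)) =
        (2⁻¹ : F) • (b.repr T i • (1 : F) ⊗ₜ[k] B i + b.repr T i • (1 : F) ⊗ₜ[k] star (B i)) := by
      intro i
      rw [TensorProduct.tmul_add, mul_smul, smul_add]
    rw [Finset.sum_congr rfl fun i _ => e i, ← Finset.smul_sum, Finset.sum_add_distrib, ← h3,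
      ← h4, ← two_smul F T, smul_smul, inv_mul_cancel₀ h2F, one_smul]
  have h6 : ∀ x : D, (2⁻¹ : F) • g x = g ((2⁻¹ : K) • x) := by
    intro x
    rw [map_smul g, ← algebraMap_smul L (2⁻¹ : F), ← algebraMap_smul L (2⁻¹ : K), map_inv₀,
      map_inv₀, map_ofNat, map_ofNat]
  have h7 : ρ T = ∑ i, b.repr T i • (g (prL hk h (B i)) + algebraMap K L
      ((3⁻¹ : K) * C.T ((2⁻¹ : K) • (B i + star (B i)))) • (1 : Matrix (Fin 3) (Fin 3) L)) := by
    conv_lhs => rw [h5]
    rw [map_sum]
    refine Finset.sum_congr rfl fun i _ => ?_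
    rw [map_smul, ← hg, mul_comm, mul_smul, h6, half_eq hk h (B i), map_add, map_smul g _ (1 : D),
      map_one, algebraMap_smul, ← half_eq hk h (B i)]
  refine ⟨fun i => b.repr T i, ∑ i, algebraMap F L (b.repr T i) * algebraMap K L
      ((3⁻¹ : K) * C.T ((2⁻¹ : K) • (B i + star (B i)))), ?_⟩
  rw [h7, Finset.sum_smul, ← Finset.sum_add_distrib]
  refine Finset.sum_congr rfl fun i _ => ?_
  rw [smul_add, mul_smul, algebraMap_smul L (b.repr T i)]

end cases

end Vale.Agent.P011.H872
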