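import Vale.Agent.P011.H872.RootB

/-!
# Symmetric elements of trace zero in coordinates

The reduced norm and the second coefficient of a combination of projections are values of a cubic
and of a quadratic form over the ground field.
-/

open Module Matrix

set_option linter.unusedSectionVars false

namespace Vale.Agent.P011.H872

open Vale.Agent.P011.H775 Vale.Agent.P011.H948

variable {k K D : Type} [Field k] [Field K] [StarRing K] [DivisionRing D] [StarRing D]
  [Algebra k K] [Algebra k D] [Algebra K D] [IsScalarTower k K D]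
  (hk : ∀ c : k, star (algebraMap k K c) = algebraMap k K c) {C : Cub K D} (h : SCub C)

section cubic

/-- The second coefficient of an element of trace zero. -/
theorem S_of_T {a : D} (h2 : (2 : K) ≠ 0) (ha : C.T a = 0) : C.S a = -(C.T (a * a) / 2) := by
  have h1 : C.S a = C.T (C.adj a) := rfl
  rw [C.adj_eq, ha, zero_smul, sub_zero, map_add, map_smul C.T (C.S a), C.T_one,
    smul_eq_mul] at h1
  field_simp
  linear_combination -h1

/-- The reduced norm of an element of trace zero. -/
theorem N_of_T {a : D} (h3 : (3 : K) ≠ 0) (ha : C.T a = 0) : C.N a = C.T (a * a * a) / 3 := by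
  have h1 := congrArg C.T (C.cayley a)
  rw [ha, zero_smul, sub_zero, map_sub, map_add, map_smul C.T (C.S a), map_smul C.T (C.N a), ha,
    C.T_one, smul_zero, add_zero, map_zero, smul_eq_mul] at h1
  field_simp
  linear_combination -h1

end cubic

variable {M : ℕ} {p : Fin M → D} {t2 : Fin M → Fin M → k} {t3 : Fin M → Fin M → Fin M → k}

/-- The trace form in coordinates. -/
theorem T_sq_eq (ht2 : ∀ i j, algebraMap k K (t2 i j) = C.T (p i * p j)) (x : Fin M → k) :
    C.T ((∑ i, x i • p i) * (∑ i, x i • p i)) = algebraMap k K (q2 t2 x) := by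
  have h1 := T_sq (C.T.restrictScalars k) x p
  rw [LinearMap.restrictScalars_apply] at h1
  rw [h1, q2, map_sum]
  refine Finset.sum_congr rfl fun i _ => ?_
  rw [map_sum]
  refine Finset.sum_congr rfl fun j _ => ?_
  rw [LinearMap.restrictScalars_apply, ← ht2, Algebra.smul_def, ← map_mul]

/-- The cubic form in coordinates. -/
theorem T_cube_eq (ht3 : ∀ i j l, algebraMap k K (t3 i j l) =
      C.T (p i * p j * p l) + C.T (p l * p j * p i)) (x : Fin M → k) :
    2 * C.T ((∑ i, x i • p i) * (∑ i, x i • p i) * (∑ i, x i • p i)) =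
      algebraMap k K (q3 t3 x) := by
  have h1 := T_cube_two (C.T.restrictScalars k) x p
  rw [LinearMap.restrictScalars_apply] at h1
  rw [two_mul, h1, q3, map_sum]
  refine Finset.sum_congr rfl fun i _ => ?_
  rw [map_sum]
  refine Finset.sum_congr rfl fun j _ => ?_
  rw [map_sum]
  refine Finset.sum_congr rfl fun l _ => ?_
  rw [LinearMap.restrictScalars_apply, LinearMap.restrictScalars_apply, ← ht3, Algebra.smul_def,
    ← map_mul]

include h in
/-- The coefficients exist. -/
theorem exists_t (hfix : ∀ x : K, star x = x → x ∈ Set.range (algebraMap k K))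
    (hp : ∀ i, star (p i) = p i) : ∃ (t2 : Fin M → Fin M → k) (t3 : Fin M → Fin M → Fin M → k),
      (∀ i j, algebraMap k K (t2 i j) = C.T (p i * p j)) ∧
      ∀ i j l, algebraMap k K (t3 i j l) = C.T (p i * p j * p l) + C.T (p l * p j * p i) := by
  have h1 : ∀ i j, ∃ t : k, algebraMap k K t = C.T (p i * p j) := fun i j =>
    hfix _ (h.T_mul_symm (hp i) (hp j))
  have h2 : ∀ i j l, ∃ t : k, algebraMap k K t =
      C.T (p i * p j * p l) + C.T (p l * p j * p i) := fun i j l => hfix _ (by
    rw [star_add, ← h.T, ← h.T, star_mul, star_mul, star_mul, star_mul, hp, hp, hp, add_comm,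
      mul_assoc, mul_assoc])
  choose t2 ht2 using h1
  choose t3 ht3 using h2
  exact ⟨t2, t3, ht2, ht3⟩

/-- **A projection is not a multiple of a given element.** -/
theorem exists_ne_smul (hdeg : finrank K D = 3 ^ 2) (h2 : (2 : K) ≠ 0) {s : K} (hs0 : s ≠ 0)
    (hs : star s = -s) (B : Basis (Fin M) k D) (a1 : D) :
    ∃ i, ∀ c : k, prL hk h (B i) ≠ c • a1 := by
  classical
  by_contra hcon
  push Not at hcon
  choose c hc using hcon
  have h3 : ∀ x : D, ∃ e : k, prL hk h x = e • a1 := by
    intro x
    refine ⟨∑ i, B.repr x i * c i, ?_⟩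
    conv_lhs => rw [← B.sum_repr x]
    rw [map_sum, Finset.sum_smul]
    refine Finset.sum_congr rfl fun i _ => ?_
    rw [map_smul, hc, smul_smul]
  have h4 : (⊤ : Submodule K D) ≤ Submodule.span K (({a1, 1} : Finset D) : Set D) := by
    intro x _
    obtain ⟨c, hc⟩ := full_eq hk h h2 hs0 hs x
    obtain ⟨e1, he1⟩ := h3 x
    obtain ⟨e2, he2⟩ := h3 (s⁻¹ • x)
    rw [hc, he1, he2, ← algebraMap_smul K e1 a1, ← algebraMap_smul K e2 a1]
    refine Submodule.add_mem _ (Submodule.add_mem _ (Submodule.smul_mem _ _ ?_)
      (Submodule.smul_mem _ _ (Submodule.smul_mem _ _ ?_))) (Submodule.smul_mem _ _ ?_)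
    · exact Submodule.subset_span (by simp)
    · exact Submodule.subset_span (by simp)
    · exact Submodule.subset_span (by simp)
  have h5 : finrank K D ≤ 2 := by
    have e1 := finrank_span_finset_le_card (R := K) ({a1, 1} : Finset D)
    have e2 : (({a1, 1} : Finset D)).card ≤ 2 := Finset.card_le_two
    rw [Set.finrank, top_le_iff.mp h4, finrank_top] at e1
    exact e1.trans e2
  omega

end Vale.Agent.P011.H872
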